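import Mathlib

/-!
# P002: an algebraic unit on the unit circle that is not a root of unity
-/

namespace Vale.Agent.P002

open Polynomial

theorem exists_dickson_int (n : ℕ) :
    ∃ P : ℤ[X], ∀ z : ℂ, z ≠ 0 → Polynomial.aeval (z + z⁻¹) P = z ^ n + (z ^ n)⁻¹ := by
  induction n using Nat.twoStepInduction with
  | zero => exact ⟨C 2, fun z _ => by rw [aeval_C]; norm_num⟩
  | one => exact ⟨X, fun z _ => by simp⟩
  | more n h0 h1 =>
    obtain ⟨P, hP⟩ := h0
    obtain ⟨Q, hQ⟩ := h1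
    refine ⟨X * Q - P, fun z hz => ?_⟩
    rw [map_sub, map_mul, aeval_X, hP z hz, hQ z hz]
    field_simp
    ring

/-- An algebraic unit of absolute value one which is not a root of unity. -/
theorem exists_alpha : ∃ α : ℂ, ‖α‖ = 1 ∧ IsIntegral ℤ α ∧ IsIntegral ℤ α⁻¹ ∧
    (∀ n : ℕ, 0 < n → α ^ n ≠ 1) ∧
    α ^ 5 = 1 + 2 * ((α - 1) * (α ^ 3 + α ^ 2 + α)) := by
  set t : ℝ := Real.sqrt 13 with ht
  have ht2 : t ^ 2 = 13 := Real.sq_sqrt (by norm_num)
  have htlo : 3 < t := by rw [ht, Real.lt_sqrt] <;> norm_num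
  have hthi : t < 4 := by rw [ht, Real.sqrt_lt] <;> norm_num
  set y : ℝ := (1 - t) / 2 with hy
  set y' : ℝ := (1 + t) / 2 with hy'
  have hy2 : y ^ 2 = y + 3 := by rw [hy]; linear_combination (1 / 4 : ℝ) * ht2
  have hy2' : y' ^ 2 = y' + 3 := by rw [hy']; linear_combination (1 / 4 : ℝ) * ht2
  have hylt : y ^ 2 < 4 := by rw [hy2, hy]; linarith
  have hyirr : Irrational y := by
    have : Irrational (Real.sqrt ((13 : ℕ) : ℝ)) := (by norm_num : Nat.Prime 13).irrational_sqrt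
    rw [hy, ht]
    simpa using ((this.ratCast_sub (1 : ℚ)).div_natCast (m := 2) (by norm_num))
  set s : ℝ := Real.sqrt (4 - y ^ 2) with hs
  have hs2 : s ^ 2 = 4 - y ^ 2 := Real.sq_sqrt (by linarith)
  set α : ℂ := ⟨y / 2, s / 2⟩ with hα
  have hsum : α + (starRingEnd ℂ) α = (y : ℂ) := by
    apply Complex.ext <;> simp [hα]
  have hnorm : ‖α‖ = 1 := by
    rw [Complex.norm_eq_sqrt_sq_add_sq, hα]
    have : (y / 2) ^ 2 + (s / 2) ^ 2 = 1 := by linear_combination (1 / 4 : ℝ) * hs2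
    simp [this]
  have hα0 : α ≠ 0 := fun h => by simp [h] at hnorm
  have hconj : (starRingEnd ℂ) α = α⁻¹ := by
    refine eq_inv_of_mul_eq_one_left ?_
    rw [← Complex.normSq_eq_conj_mul_self, Complex.normSq_eq_norm_sq, hnorm]; simp
  rw [hconj] at hsum
  have hquad : α ^ 2 = (y : ℂ) * α - 1 := by rw [← hsum]; field_simp; ring
  have hyC : (y : ℂ) ^ 2 = y + 3 := by exact_mod_cast congrArg (fun u : ℝ => (u : ℂ)) hy2
  have hroot : α ^ 4 - α ^ 3 - α ^ 2 - α + 1 = 0 := by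
    linear_combination (α ^ 2 + ((y : ℂ) - 1) * α + 1) * hquad + (α ^ 2) * hyC
  refine ⟨α, hnorm, ⟨X ^ 4 - X ^ 3 - X ^ 2 - X + 1, by monicity!, ?_⟩,
    ⟨X ^ 4 - X ^ 3 - X ^ 2 - X + 1, by monicity!, ?_⟩, ?_⟩
  · simpa [eval₂_add, eval₂_sub] using hroot
  · simp [eval₂_add, eval₂_sub]
    field_simp
    linear_combination hroot
  refine ⟨?_, by linear_combination (α - 1) * hroot⟩
  intro n hn hpow
  obtain ⟨P, hP⟩ := exists_dickson_int n
  have hPy : aeval (y : ℂ) P = 2 := by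
    rw [← hsum, hP α hα0, hpow]; norm_num
  set q : ℤ[X] := X ^ 2 - X - 3 with hq
  have hqm : q.Monic := by rw [hq]; monicity!
  set R : ℤ[X] := (P - 2) %ₘ q with hR
  have hdeg : R.natDegree < 2 := by
    have : q.natDegree = 2 := by rw [hq]; compute_degree!
    exact this ▸ natDegree_modByMonic_lt _ hqm (fun h => by simp [h] at this)
  have hPy' : aeval y P = 2 := by
    have h := hPy
    rw [show (y : ℂ) = algebraMap ℝ ℂ y from rfl, aeval_algebraMap_apply, Complex.coe_algebraMap] at h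
    exact_mod_cast h
  have hlin : ∀ u : ℝ, u ^ 2 = u + 3 → aeval u P - 2 = (R.coeff 1 : ℝ) * u + R.coeff 0 := by
    intro u hu
    have h := congrArg (aeval u) (modByMonic_add_div (P - 2) q)
    have hqu : aeval u q = 0 := by
      have h3 : aeval u (3 : ℤ[X]) = (3 : ℝ) := map_ofNat _ _
      rw [hq, map_sub, map_sub, map_pow, aeval_X, h3]; linarith
    rw [map_add, map_mul, hqu, zero_mul, add_zero, map_sub, map_ofNat] at h
    rw [← h, ← hR, aeval_eq_sum_range' hdeg]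
    simp [Finset.sum_range_succ, add_comm]
  have h0 := hlin y hy2
  rw [hPy', sub_self] at h0
  have hc1 : R.coeff 1 = 0 := by
    by_contra hne
    refine hyirr ⟨-(R.coeff 0 : ℚ) / (R.coeff 1 : ℚ), ?_⟩
    have : (R.coeff 1 : ℝ) ≠ 0 := by exact_mod_cast hne
    push_cast
    field_simp
    linarith
  have hc0 : (R.coeff 0 : ℝ) = 0 := by rw [hc1] at h0; simpa using h0.symm
  have h1 := hlin y' hy2'
  rw [hc1, hc0] at h1
  have hPy1 : aeval y' P = 2 := by simp at h1; linarith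
  -- the real conjugate
  set s' : ℝ := Real.sqrt (y' ^ 2 - 4) with hs'
  have hy'pos : 2 < y' := by rw [hy']; linarith
  have hs'2 : s' ^ 2 = y' ^ 2 - 4 := Real.sq_sqrt (by nlinarith)
  have hs'0 : 0 ≤ s' := Real.sqrt_nonneg _
  set β : ℝ := (y' + s') / 2 with hβ
  have hβ1 : 1 < β := by rw [hβ]; linarith
  have hβsum : β + β⁻¹ = y' := by
    have : β ≠ 0 := by linarith
    field_simp
    rw [hβ]; linear_combination (1 / 4 : ℝ) * hs'2
  have h2 := hP (β : ℂ) (by exact_mod_cast (by linarith : β ≠ 0))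
  have h3 : ((β : ℂ) + (β : ℂ)⁻¹) = (y' : ℂ) := by rw [← hβsum]; push_cast; ring
  rw [h3, show (y' : ℂ) = algebraMap ℝ ℂ y' from rfl, aeval_algebraMap_apply, hPy1,
    Complex.coe_algebraMap] at h2
  have h4 : (2 : ℝ) = β ^ n + (β ^ n)⁻¹ := by exact_mod_cast h2
  have h5 : 1 < β ^ n := one_lt_pow₀ hβ1 hn.ne'
  have h6 : β ^ n * (β ^ n)⁻¹ = 1 := mul_inv_cancel₀ (by linarith)
  nlinarith

end Vale.Agent.P002
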