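import Mathlib

/-!
# P002: functions on a torus given by substituting monomials into a polynomial
-/

namespace Vale.Agent.P002

open Polynomial

/-- A function on `ℂˣ` that is a polynomial divided by a power of the coordinate. -/
def Lau (f : ℂˣ → ℂ) : Prop := ∃ (D : ℕ) (q : ℂ[X]), ∀ t : ℂˣ, f t * (t : ℂ) ^ D = q.eval (t : ℂ)

theorem lau_const (c : ℂ) : Lau fun _ => c := ⟨0, C c, fun t => by simp⟩

theorem Lau.add {f g : ℂˣ → ℂ} (hf : Lau f) (hg : Lau g) : Lau fun t => f t + g t := by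
  obtain ⟨D, q, hq⟩ := hf
  obtain ⟨D', q', hq'⟩ := hg
  refine ⟨D + D', q * X ^ D' + q' * X ^ D, fun t => ?_⟩
  rw [eval_add, eval_mul, eval_mul, eval_pow, eval_pow, eval_X, ← hq, ← hq']
  ring

theorem Lau.mul {f g : ℂˣ → ℂ} (hf : Lau f) (hg : Lau g) : Lau fun t => f t * g t := by
  obtain ⟨D, q, hq⟩ := hf
  obtain ⟨D', q', hq'⟩ := hg
  refine ⟨D + D', q * q', fun t => ?_⟩
  rw [eval_mul, ← hq, ← hq']
  ring

theorem lau_mono (c : ℂ) (a : ℤ) : Lau fun t => c * ((t ^ a : ℂˣ) : ℂ) := by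
  refine ⟨a.natAbs, C c * X ^ (a + a.natAbs).toNat, fun t => ?_⟩
  rw [eval_mul, eval_C, eval_pow, eval_X, mul_assoc, Units.val_zpow_eq_zpow_val, ← zpow_natCast,
    ← zpow_add₀ t.ne_zero, ← zpow_natCast, Int.toNat_of_nonneg (by omega)]

theorem Lau.eq_zero {f : ℂˣ → ℂ} (hf : Lau f) {α : ℂˣ} (hα : Function.Injective fun n : ℕ => α ^ n)
    (h : ∀ n : ℕ, f (α ^ n) = 0) (t : ℂˣ) : f t = 0 := by
  obtain ⟨D, q, hq⟩ := hf
  have : q = 0 := Polynomial.eq_zero_of_infinite_isRoot q (by
    refine Set.infinite_of_injective_forall_mem (f := fun n : ℕ => ((α ^ n : ℂˣ) : ℂ))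
      (Units.val_injective.comp hα) fun n => ?_
    show q.eval _ = 0
    rw [← hq, h, zero_mul])
  have h1 := hq t
  rw [this, eval_zero] at h1
  exact (mul_eq_zero.1 h1).resolve_right (pow_ne_zero _ t.ne_zero)

theorem lau_eval {ι : Type} (p : MvPolynomial ι ℂ) (c : ι → ℂ) (a : ι → ℤ) :
    Lau fun t => MvPolynomial.eval (fun i => c i * ((t ^ a i : ℂˣ) : ℂ)) p := by
  induction p using MvPolynomial.induction_on with
  | C z => simpa using lau_const z
  | add p q hp hq => simpa only [map_add] using hp.add hq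
  | mul_X p i hp => simpa only [map_mul, MvPolynomial.eval_X] using hp.mul (lau_mono (c i) (a i))

theorem eval_monomial_subst_eq_zero {ι : Type} {n : ℕ} (p : MvPolynomial ι ℂ) (c : ι → ℂ)
    (a : ι → Fin n → ℤ) {α : ℂˣ} (hα : Function.Injective fun k : ℕ => α ^ k)
    (h : ∀ k : Fin n → ℕ,
      MvPolynomial.eval (fun i => c i * ((∏ l, (α ^ k l) ^ a i l : ℂˣ) : ℂ)) p = 0)
    (w : Fin n → ℂˣ) :
    MvPolynomial.eval (fun i => c i * ((∏ l, w l ^ a i l : ℂˣ) : ℂ)) p = 0 := by
  classical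
  suffices ∀ J : Finset (Fin n), ∀ w : Fin n → ℂˣ, (∀ l ∉ J, ∃ k : ℕ, w l = α ^ k) →
      MvPolynomial.eval (fun i => c i * ((∏ l, w l ^ a i l : ℂˣ) : ℂ)) p = 0 from
    this Finset.univ w fun l hl => absurd (Finset.mem_univ l) hl
  intro J
  induction J using Finset.induction_on with
  | empty =>
    intro w hw
    choose k hk using fun l => hw l (Finset.notMem_empty l)
    obtain rfl : w = fun l => α ^ k l := funext hk
    exact h k
  | @insert l J hl ih =>
    intro w hw
    let f : ℂˣ → ℂ := fun t =>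
      MvPolynomial.eval (fun i => c i * ((∏ m, Function.update w l t m ^ a i m : ℂˣ) : ℂ)) p
    have hf : Lau f := by
      have e : f = fun t => MvPolynomial.eval (fun i =>
          (c i * ((∏ m ∈ Finset.univ.erase l, w m ^ a i m : ℂˣ) : ℂ)) *
            ((t ^ a i l : ℂˣ) : ℂ)) p := by
        refine funext fun t => ?_
        refine congrArg (fun g : ι → ℂ => MvPolynomial.eval g p) (funext fun i => ?_)
        rw [mul_assoc, ← Units.val_mul, ← Finset.prod_erase_mul _ _ (Finset.mem_univ l),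
          Function.update_self]
        congr 3
        exact Finset.prod_congr rfl fun m hm => by
          rw [Function.update_of_ne (Finset.ne_of_mem_erase hm)]
      rw [e]
      exact lau_eval _ _ _
    have h0 : ∀ k : ℕ, f (α ^ k) = 0 := fun k => ih _ fun m hm => by
      rcases eq_or_ne m l with rfl | hne
      · exact ⟨k, Function.update_self ..⟩
      · rw [Function.update_of_ne hne]
        exact hw m (by simp [hne, hm])
    simpa [f] using hf.eq_zero hα h0 (w l)

end Vale.Agent.P002
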