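import Vale.Agent.P002.Monomial

/-!
# P002: monomial matrices and monomial form of semisimple representations
-/

namespace Vale.Agent.P002

open Matrix Module
open scoped ComplexConjugate

variable {r : ℕ}

/-- The monomial matrix sending `e k` to `x k • e (π k)`. -/
def Mat (π : Equiv.Perm (Fin r)) (x : Fin r → ℂˣ) : Matrix (Fin r) (Fin r) ℂ :=
  fun i k => if i = π k then (x k : ℂ) else 0

theorem mat_apply (π : Equiv.Perm (Fin r)) (x : Fin r → ℂˣ) (i k : Fin r) :
    Mat π x i k = if i = π k then (x k : ℂ) else 0 := rfl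

theorem mat_mul (π π' : Equiv.Perm (Fin r)) (x y : Fin r → ℂˣ) :
    Mat π x * Mat π' y = Mat (π * π') (fun k => x (π' k) * y k) := by
  ext i k
  rw [Matrix.mul_apply, Finset.sum_eq_single (π' k)]
  · simp [mat_apply, Equiv.Perm.mul_apply, ite_mul]
    split_ifs <;> simp_all
  · intro j _ hj
    simp [mat_apply, hj]
  · simp

theorem mat_one : Mat (1 : Equiv.Perm (Fin r)) (fun _ => 1) = 1 := by
  ext i k
  simp [mat_apply, Matrix.one_apply]
  split_ifs <;> simp_all

theorem mat_inj {π π' : Equiv.Perm (Fin r)} {x y : Fin r → ℂˣ} (h : Mat π x = Mat π' y) :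
    π = π' ∧ x = y := by
  have h1 : ∀ k, π k = π' k := fun k => by
    by_contra hk
    have := congrFun (congrFun h (π k)) k
    simp [mat_apply, hk] at this
  refine ⟨Equiv.ext h1, funext fun k => Units.ext ?_⟩
  have := congrFun (congrFun h (π k)) k
  simpa [mat_apply, h1] using this

theorem det_mat (π : Equiv.Perm (Fin r)) (x : Fin r → ℂˣ) :
    (Mat π x).det = (Equiv.Perm.sign π : ℤ) * ∏ k, (x k : ℂ) := by
  have h : Mat π x = (Matrix.diagonal fun k => (x k : ℂ)).submatrix π.symm id := by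
    ext i k
    simp only [mat_apply, Matrix.submatrix_apply, Matrix.diagonal_apply, id,
      Equiv.symm_apply_eq]
    split_ifs with hi
    · rw [hi, Equiv.symm_apply_apply]
    · rfl
  rw [h, Matrix.det_permute, Matrix.det_diagonal, Equiv.Perm.sign_symm]

theorem mat_mulVec (π : Equiv.Perm (Fin r)) (x : Fin r → ℂˣ) (v : Fin r → ℂ) (k : Fin r) :
    (Mat π x *ᵥ v) (π k) = x k * v k := by
  rw [Matrix.mulVec, dotProduct, Finset.sum_eq_single k]
  · simp [mat_apply]
  · intro j _ hj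
    simp [mat_apply, Ne.symm hj]
  · simp

/-- A unitary monomial matrix preserves the Hermitian product. -/
theorem herm_mat (π : Equiv.Perm (Fin r)) (x : Fin r → ℂˣ) (hx : ∀ k, ‖(x k : ℂ)‖ = 1)
    (u v : Fin r → ℂ) :
    ∑ i, conj ((Mat π x *ᵥ u) i) * (Mat π x *ᵥ v) i = ∑ i, conj (u i) * v i := by
  rw [← Equiv.sum_comp π (fun i => conj ((Mat π x *ᵥ u) i) * (Mat π x *ᵥ v) i)]
  refine Finset.sum_congr rfl fun k _ => ?_
  rw [mat_mulVec, mat_mulVec, map_mul]
  have : conj (x k : ℂ) * x k = 1 := by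
    rw [← Complex.normSq_eq_conj_mul_self, Complex.normSq_eq_norm_sq, hx]; simp
  linear_combination (conj (u k) * v k) * this

/-- Semisimplicity, written with invariant complements. -/
def SS {Γ : Type} [Group Γ] (ρ : Γ →* Matrix.SpecialLinearGroup (Fin r) ℂ) : Prop :=
  ∀ W : Submodule ℂ (Fin r → ℂ),
    (∀ g, ∀ v ∈ W, (ρ g : Matrix (Fin r) (Fin r) ℂ) *ᵥ v ∈ W) →
    ∃ W' : Submodule ℂ (Fin r → ℂ),
      (∀ g, ∀ v ∈ W', (ρ g : Matrix (Fin r) (Fin r) ℂ) *ᵥ v ∈ W') ∧ IsCompl W W'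

theorem ss_of_unitary {Γ : Type} [Group Γ] (ρ : Γ →* Matrix.SpecialLinearGroup (Fin r) ℂ)
    (h : ∀ g, ∀ u v : Fin r → ℂ, ∑ i, conj (((ρ g : Matrix (Fin r) (Fin r) ℂ) *ᵥ u) i) *
      ((ρ g : Matrix (Fin r) (Fin r) ℂ) *ᵥ v) i = ∑ i, conj (u i) * v i) : SS ρ := by
  intro W hW
  let e : EuclideanSpace ℂ (Fin r) ≃ₗ[ℂ] (Fin r → ℂ) := WithLp.linearEquiv 2 ℂ (Fin r → ℂ)
  let U : Submodule ℂ (EuclideanSpace ℂ (Fin r)) := W.comap e.toLinearMap
  have hU : U.map e.toLinearMap = W := Submodule.map_comap_eq_of_surjective e.surjective _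
  have hin : ∀ a b : EuclideanSpace ℂ (Fin r),
      inner ℂ a b = ∑ i, conj (e a i) * e b i := fun a b => by
    simp [PiLp.inner_apply, e, mul_comm]
  refine ⟨Uᗮ.map e.toLinearMap, ?_, ?_⟩
  · rintro g _ ⟨v, hv, rfl⟩
    refine ⟨e.symm ((ρ g : Matrix (Fin r) (Fin r) ℂ) *ᵥ e v), ?_, e.apply_symm_apply _⟩
    rw [SetLike.mem_coe, Submodule.mem_orthogonal]
    intro a ha
    have h1 : e.symm ((ρ g⁻¹ : Matrix (Fin r) (Fin r) ℂ) *ᵥ e a) ∈ U := by
      show e (e.symm _) ∈ W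
      rw [LinearEquiv.apply_symm_apply]
      exact hW _ _ ha
    have h2 := (Submodule.mem_orthogonal _ _).1 hv _ h1
    rw [hin, LinearEquiv.apply_symm_apply] at h2 ⊢
    rw [← h2, ← h g ((ρ g⁻¹ : Matrix (Fin r) (Fin r) ℂ) *ᵥ e a) (e v), Matrix.mulVec_mulVec,
      ← Matrix.SpecialLinearGroup.coe_mul, ← map_mul, mul_inv_cancel, map_one]
    simp
  · rw [← hU]
    exact (Submodule.orderIsoMapComap e).isCompl (Submodule.isCompl_orthogonal U)

/-- A semisimple representation of a nilpotent group is conjugate to a monomial one. -/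
theorem exists_mono_form {Γ : Type} [Group Γ] [Group.IsNilpotent Γ]
    (ρ : Γ →* Matrix.SpecialLinearGroup (Fin r) ℂ) (hss : SS ρ) :
    ∃ (P : Matrix.SpecialLinearGroup (Fin r) ℂ) (σ : Γ →* Equiv.Perm (Fin r))
      (x : Γ → Fin r → ℂˣ),
      (∀ a b k, x (a * b) k = x a (σ b k) * x b k) ∧
      ∀ a, ((P⁻¹ * ρ a * P : Matrix.SpecialLinearGroup (Fin r) ℂ) : Matrix (Fin r) (Fin r) ℂ) =
        Mat (σ a) (x a) := by
  classical
  let R : Representation ℂ Γ (Fin r → ℂ) :=
    { toFun := fun a => Matrix.toLin' (ρ a : Matrix (Fin r) (Fin r) ℂ)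
      map_one' := by simp; rfl
      map_mul' := fun a b => by
        rw [map_mul, Matrix.SpecialLinearGroup.coe_mul, Matrix.toLin'_mul]; rfl }
  obtain ⟨ι, hι, b0, hb0⟩ := mono_of_semisimple _ R rfl hss
  have hcard : Fintype.card ι = r := by
    rw [← Module.finrank_eq_card_basis b0, Module.finrank_fin_fun]
  let b : Basis (Fin r) ℂ (Fin r → ℂ) := b0.reindex (Fintype.equivFinOfCardEq hcard)
  have hb : ∀ a k, ∃ c : ℂˣ, ∃ j, (ρ a : Matrix (Fin r) (Fin r) ℂ) *ᵥ b k = (c : ℂ) • b j := by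
    intro a k
    obtain ⟨c, j, hj⟩ := hb0 a ((Fintype.equivFinOfCardEq hcard).symm k)
    have hj' : (ρ a : Matrix (Fin r) (Fin r) ℂ) *ᵥ b k =
        c • b (Fintype.equivFinOfCardEq hcard j) := by
      simpa [b, R, Matrix.toLin'_apply] using hj
    have hc : c ≠ 0 := fun h0 => b.ne_zero k (by
      have := congrArg (fun v => (ρ a⁻¹ : Matrix (Fin r) (Fin r) ℂ) *ᵥ v) hj'
      simp only [h0, zero_smul, Matrix.mulVec_zero, Matrix.mulVec_mulVec,
        ← Matrix.SpecialLinearGroup.coe_mul, ← map_mul, inv_mul_cancel, map_one,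
        Matrix.SpecialLinearGroup.coe_one, Matrix.one_mulVec] at this
      exact this)
    exact ⟨Units.mk0 c hc, _, hj'⟩
  choose x j hj using hb
  have hjinj : ∀ a, Function.Injective (j a) := fun a k k' h => by
    by_contra hne
    have h1 : (ρ a : Matrix (Fin r) (Fin r) ℂ) *ᵥ ((x a k' : ℂ) • b k - (x a k : ℂ) • b k') = 0 := by
      rw [Matrix.mulVec_sub, Matrix.mulVec_smul, Matrix.mulVec_smul, hj, hj, h, smul_comm,
        sub_self]
    have h2 := congrArg (fun v => (ρ a⁻¹ : Matrix (Fin r) (Fin r) ℂ) *ᵥ v) h1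
    simp only [Matrix.mulVec_mulVec, ← Matrix.SpecialLinearGroup.coe_mul, ← map_mul,
      inv_mul_cancel, map_one, Matrix.SpecialLinearGroup.coe_one, Matrix.one_mulVec,
      Matrix.mulVec_zero] at h2
    have h3 := congrArg (fun v => b.repr v k) h2
    simp [Ne.symm hne] at h3
  let π : Γ → Equiv.Perm (Fin r) := fun a =>
    Equiv.ofBijective (j a) (Finite.injective_iff_bijective.1 (hjinj a))
  let B : Matrix (Fin r) (Fin r) ℂ := Matrix.of fun i k => b k i
  have hB : ∀ a, (ρ a : Matrix (Fin r) (Fin r) ℂ) * B = B * Mat (π a) (x a) := fun a => by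
    ext i k
    rw [Matrix.mul_apply, Matrix.mul_apply]
    conv_rhs => rw [Finset.sum_eq_single (π a k) (fun l _ hl => by simp [mat_apply, hl]) (by simp)]
    have := congrFun (hj a k) i
    simpa [B, mat_apply, π, Matrix.mulVec, dotProduct, mul_comm] using this
  have hdet : B.det ≠ 0 := by
    have : B = (Pi.basisFun ℂ (Fin r)).toMatrix b := by
      ext i k; simp [B, Basis.toMatrix_apply]
    rw [this]
    have := (Pi.basisFun ℂ (Fin r)).invertibleToMatrix b
    exact (Matrix.isUnit_det_of_invertible _).ne_zero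
  obtain ⟨u, hu⟩ : ∃ u : ℂ, u ^ r * B.det = 1 := by
    rcases Nat.eq_zero_or_pos r with hr | hr
    · subst hr; exact ⟨1, by simp⟩
    · obtain ⟨u, hu⟩ := IsAlgClosed.exists_pow_nat_eq (B.det)⁻¹ hr
      exact ⟨u, by rw [hu, inv_mul_cancel₀ hdet]⟩
  let P : Matrix.SpecialLinearGroup (Fin r) ℂ :=
    ⟨u • B, by rw [Matrix.det_smul, Fintype.card_fin, hu]⟩
  have hP : ∀ a, ((P⁻¹ * ρ a * P : Matrix.SpecialLinearGroup (Fin r) ℂ) :
      Matrix (Fin r) (Fin r) ℂ) = Mat (π a) (x a) := fun a => by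
    rw [mul_assoc, Matrix.SpecialLinearGroup.coe_mul, Matrix.SpecialLinearGroup.coe_mul]
    have : (ρ a : Matrix (Fin r) (Fin r) ℂ) * (P : Matrix (Fin r) (Fin r) ℂ) =
        (P : Matrix (Fin r) (Fin r) ℂ) * Mat (π a) (x a) := by
      show (ρ a : Matrix (Fin r) (Fin r) ℂ) * (u • B) = (u • B) * _
      rw [Matrix.mul_smul, hB, Matrix.smul_mul]
    rw [this, ← mul_assoc, ← Matrix.SpecialLinearGroup.coe_mul, inv_mul_cancel,
      Matrix.SpecialLinearGroup.coe_one, one_mul]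
  have hmul : ∀ a c, π (a * c) = π a * π c ∧ x (a * c) = fun k => x a (π c k) * x c k :=
    fun a c => by
      refine mat_inj ?_
      rw [← mat_mul, ← hP, ← hP, ← hP, ← Matrix.SpecialLinearGroup.coe_mul, map_mul]
      congr 1
      simp only [mul_assoc, mul_inv_cancel_left]
      rfl
  exact ⟨P, MonoidHom.mk' π fun a c => (hmul a c).1, x,
    fun a c k => congrFun (hmul a c).2 k, hP⟩

end Vale.Agent.P002
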