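import Mathlib

/-!
# P002: semisimple representations of nilpotent groups are monomial
-/

namespace Vale.Agent.P002

open Module

variable {Γ : Type} [Group Γ] {V : Type} [AddCommGroup V] [Module ℂ V]

/-- A basis whose lines are permuted by the group. -/
def Mono (ρ : Representation ℂ Γ V) : Prop :=
  ∃ (ι : Type) (_ : Fintype ι) (b : Basis ι ℂ V), ∀ γ i, ∃ (c : ℂ) (j : ι), ρ γ (b i) = c • b j

/-- The action on an invariant subspace. -/
def restr (ρ : Representation ℂ Γ V) (W : Submodule ℂ V) (hW : ∀ γ, ∀ v ∈ W, ρ γ v ∈ W) :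
    Representation ℂ Γ W where
  toFun γ := (ρ γ).restrict (hW γ)
  map_one' := by ext v; simp
  map_mul' a b := by ext v; simp

theorem coe_restr (ρ : Representation ℂ Γ V) (W : Submodule ℂ V)
    (hW : ∀ γ, ∀ v ∈ W, ρ γ v ∈ W) (γ : Γ) (v : W) :
    ((restr ρ W hW γ v : W) : V) = ρ γ (v : V) := rfl

theorem mono_of_irreducible : ∀ (d : ℕ) {Γ : Type} [Group Γ] [Group.IsNilpotent Γ] {V : Type}
    [AddCommGroup V] [Module ℂ V] [FiniteDimensional ℂ V] (ρ : Representation ℂ Γ V),
    finrank ℂ V = d → Nontrivial V →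
    (∀ W : Submodule ℂ V, (∀ γ, ∀ v ∈ W, ρ γ v ∈ W) → W = ⊥ ∨ W = ⊤) → Mono ρ := by
  intro d
  induction d using Nat.strong_induction_on with
  | _ d ih =>
    intro Γ _ _ V _ _ _ ρ hd hV hirr
    classical
    let Z : Subgroup Γ :=
      { carrier := {γ | ∃ c : ℂ, ∀ v, ρ γ v = c • v}
        one_mem' := ⟨1, fun v => by simp⟩
        mul_mem' := fun {a b} ⟨c, hc⟩ ⟨e, he⟩ => ⟨c * e, fun v => by
          rw [map_mul, Module.End.mul_apply, he, hc, mul_smul]⟩
        inv_mem' := fun {a} ⟨c, hc⟩ => ⟨c⁻¹, fun v => by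
          have h1 : c • ρ a⁻¹ v = v := by
            rw [← hc, ← Module.End.mul_apply, ← map_mul, mul_inv_cancel, map_one,
              Module.End.one_apply]
          rcases eq_or_ne c 0 with rfl | hc0
          · rw [zero_smul] at h1
            rw [← h1, map_zero, smul_zero]
          · conv_rhs => rw [← h1]
            rw [inv_smul_smul₀ hc0]⟩ }
    have hZn : Z.Normal := ⟨fun a ha g => by
      obtain ⟨c, hc⟩ := ha
      refine ⟨c, fun v => ?_⟩
      rw [map_mul, map_mul, Module.End.mul_apply, Module.End.mul_apply, hc, map_smul,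
        ← Module.End.mul_apply, ← map_mul, mul_inv_cancel, map_one, Module.End.one_apply]⟩
    by_cases hall : ∀ γ, γ ∈ Z
    · obtain ⟨v, hv⟩ := exists_ne (0 : V)
      have hspan : Submodule.span ℂ {v} = ⊤ := by
        refine (hirr _ fun γ w hw => ?_).resolve_left (by simpa using hv)
        obtain ⟨c, hc⟩ := hall γ
        rw [hc]; exact Submodule.smul_mem _ c hw
      refine ⟨Unit, inferInstance, Basis.mk (v := fun _ : Unit => v)
        (LinearIndependent.of_subsingleton () hv) (by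
          rw [Set.range_const, hspan]), fun γ i => ?_⟩
      obtain ⟨c, hc⟩ := hall γ
      exact ⟨c, i, hc _⟩
    push Not at hall
    have : Nontrivial (Γ ⧸ Z) := by
      obtain ⟨γ, hγ⟩ := hall
      exact ⟨(γ : Γ ⧸ Z), ((1 : Γ) : Γ ⧸ Z), fun h => hγ ((QuotientGroup.eq_one_iff γ).1 h)⟩
    have : Nontrivial (Subgroup.center (Γ ⧸ Z)) :=
      (Subgroup.nontrivial_iff_ne_bot _).2 (Group.IsNilpotent.center_ne_bot _)
    obtain ⟨⟨q, hq⟩, hq1⟩ := exists_ne (1 : Subgroup.center (Γ ⧸ Z))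
    obtain ⟨x, rfl⟩ := QuotientGroup.mk_surjective q
    have hx : x ∉ Z := fun h => hq1 (Subtype.ext ((QuotientGroup.eq_one_iff x).2 h))
    have hcomm : ∀ g, ∃ c : ℂ, ∀ v, ρ g (ρ x v) = c • ρ x (ρ g v) := fun g => by
      have h : ((g * x * g⁻¹ * x⁻¹ : Γ) : Γ ⧸ Z) = 1 := by
        simp only [QuotientGroup.mk_mul, QuotientGroup.mk_inv]
        rw [Subgroup.mem_center_iff.1 hq (g : Γ ⧸ Z)]
        group
      obtain ⟨c, hc⟩ := (QuotientGroup.eq_one_iff _).1 h
      refine ⟨c, fun v => ?_⟩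
      rw [← hc, ← Module.End.mul_apply, ← Module.End.mul_apply, ← Module.End.mul_apply,
        ← map_mul, ← map_mul, ← map_mul]
      congr 2
      group
    obtain ⟨μ₀, hμ₀⟩ := Module.End.exists_eigenvalue (ρ x)
    let E : ℂ → Submodule ℂ V := fun μ => Module.End.eigenspace (ρ x) μ
    have hμ0 : μ₀ ≠ 0 := by
      rintro rfl
      obtain ⟨v, hv⟩ := hμ₀.exists_hasEigenvector
      have h1 := congrArg (ρ x⁻¹) hv.apply_eq_smul
      rw [← Module.End.mul_apply, ← map_mul, inv_mul_cancel, map_one, Module.End.one_apply,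
        zero_smul, map_zero] at h1
      exact hv.2 h1
    have hmap : ∀ g μ, ∃ ν, ∀ v ∈ E μ, ρ g v ∈ E ν := fun g μ => by
      obtain ⟨c, hc⟩ := hcomm g
      refine ⟨μ / c, fun v hv => ?_⟩
      rw [Module.End.mem_eigenspace_iff] at hv ⊢
      have h1 := hc v
      rw [hv, map_smul] at h1
      rcases eq_or_ne c 0 with rfl | hc0
      · rw [zero_smul, smul_eq_zero] at h1
        rcases h1 with rfl | h1
        · have h2 := congrArg (ρ x⁻¹) hv
          rw [← Module.End.mul_apply, ← map_mul, inv_mul_cancel, map_one, Module.End.one_apply,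
            zero_smul, map_zero] at h2
          simp [h2]
        · simp [h1]
      · rw [div_eq_inv_mul, mul_smul, h1, inv_smul_smul₀ hc0]
    have hdisj : ∀ {μ ν : ℂ} {v : V}, v ∈ E μ → v ∈ E ν → v ≠ 0 → μ = ν := fun hμ hν h0 => by
      rw [Module.End.mem_eigenspace_iff] at hμ hν
      exact smul_left_injective ℂ h0 (hμ.symm.trans hν)
    obtain ⟨v₀, hv₀⟩ := hμ₀.exists_hasEigenvector
    have hv₀E : v₀ ∈ E μ₀ := hv₀.1
    -- the eigenvalues in the orbit
    let I := {μ : ℂ // ∃ g, ρ g v₀ ∈ E μ}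
    choose g hg using fun i : I => i.2
    have hne : ∀ g, ρ g v₀ ≠ 0 := fun a h => hv₀.2 (by
      have := congrArg (ρ a⁻¹) h
      rwa [← Module.End.mul_apply, ← map_mul, inv_mul_cancel, map_one, Module.End.one_apply,
        map_zero] at this)
    have hto : ∀ i : I, ∀ v ∈ E μ₀, ρ (g i) v ∈ E i.1 := fun i v hv => by
      obtain ⟨ν, hν⟩ := hmap (g i) μ₀
      rw [hdisj (hg i) (hν _ hv₀E) (hne _)]
      exact hν v hv
    let H : Subgroup Γ :=
      { carrier := {a | ∀ v, ρ a v ∈ E μ₀ ↔ v ∈ E μ₀}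
        one_mem' := fun v => by simp
        mul_mem' := fun {a b} ha hb v => by rw [map_mul, Module.End.mul_apply, ha, hb]
        inv_mem' := fun {a} ha v => by
          rw [← ha (ρ a⁻¹ v), ← Module.End.mul_apply, ← map_mul, mul_inv_cancel, map_one,
            Module.End.one_apply] }
    have hfrom : ∀ a v, v ∈ E μ₀ → ρ a v₀ ∈ E μ₀ → ρ a v ∈ E μ₀ := fun a v hv h => by
      obtain ⟨ν, hν⟩ := hmap a μ₀
      rw [hdisj h (hν _ hv₀E) (hne _)]
      exact hν v hv
    have hH : ∀ a, ρ a v₀ ∈ E μ₀ → a ∈ H := fun a ha v => by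
      refine ⟨fun h => ?_, fun h => hfrom a v h ha⟩
      obtain ⟨ν, hν⟩ := hmap a⁻¹ μ₀
      have e : ν = μ₀ := hdisj (by
        simpa [← Module.End.mul_apply, ← map_mul] using hν _ ha) hv₀E hv₀.2
      subst e
      simpa [← Module.End.mul_apply, ← map_mul] using hν _ h
    let W := E μ₀
    let σ := restr (ρ.comp H.subtype) W fun a v hv => (a.2 v).2 hv
    have hW : Nontrivial W := ⟨⟨⟨v₀, hv₀E⟩, 0, fun h => hv₀.2 (congrArg Subtype.val h)⟩⟩
    have hlt : finrank ℂ W < d := hd ▸ Submodule.finrank_lt (fun htop => hx ⟨μ₀, fun v =>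
      Module.End.mem_eigenspace_iff.1 (show v ∈ W from htop ▸ Submodule.mem_top)⟩)
    have htop : ∀ U : Submodule ℂ V, U ≠ ⊥ → U ≤ W → (∀ a ∈ H, ∀ v ∈ U, ρ a v ∈ U) →
        ⨆ i : I, U.map (ρ (g i)) = ⊤ := fun U hU hUW hinv => by
      refine (hirr _ fun a v hv => ?_).resolve_left ?_
      · refine Submodule.iSup_induction _ (motive := fun v => ρ a v ∈ ⨆ i : I, U.map (ρ (g i))) hv
          ?_ (by simp) fun u w hu hw => by rw [map_add]; exact add_mem hu hw
        rintro i _ ⟨u, hu, rfl⟩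
        obtain ⟨ν, hν⟩ := hmap (a * g i) μ₀
        let j : I := ⟨ν, a * g i, hν _ hv₀E⟩
        have hj : (g j)⁻¹ * (a * g i) ∈ H := hH _ (by
          obtain ⟨κ, hκ⟩ := hmap (g j)⁻¹ ν
          have e : κ = μ₀ := hdisj (by
            simpa [← Module.End.mul_apply, ← map_mul] using hκ _ (hg j)) hv₀E hv₀.2
          rw [map_mul ρ (g j)⁻¹, Module.End.mul_apply, ← e]
          exact hκ _ (hν _ hv₀E))
        refine Submodule.mem_iSup_of_mem j ⟨_, hinv _ hj u hu, ?_⟩
        rw [← Module.End.mul_apply, ← map_mul, mul_inv_cancel_left, map_mul, Module.End.mul_apply]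
      · intro hbot
        obtain ⟨u, hu, hu0⟩ := Submodule.exists_mem_ne_zero_of_ne_bot hU
        let i : I := ⟨μ₀, 1, by simpa using hv₀E⟩
        have h1 : ρ (g i) u = 0 :=
          (Submodule.mem_bot ℂ).1 (hbot ▸ Submodule.mem_iSup_of_mem i ⟨u, hu, rfl⟩)
        have := congrArg (ρ (g i)⁻¹) h1
        rw [← Module.End.mul_apply, ← map_mul, inv_mul_cancel, map_one, Module.End.one_apply,
          map_zero] at this
        exact hu0 this
    have hsigma : ∀ U : Submodule ℂ W, (∀ a, ∀ v ∈ U, σ a v ∈ U) → U = ⊥ ∨ U = ⊤ := by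
      intro U hU
      by_cases hb : U = ⊥
      · exact Or.inl hb
      refine Or.inr (eq_top_iff.2 fun w _ => ?_)
      have hU' : U.map W.subtype ≠ ⊥ := fun h =>
        hb (Submodule.map_injective_of_injective W.subtype_injective (by rw [h, Submodule.map_bot]))
      have h := htop (U.map W.subtype) hU' (Submodule.map_subtype_le W U) (by
        rintro a ha _ ⟨v, hv, rfl⟩
        exact ⟨σ ⟨a, ha⟩ v, hU _ v hv, rfl⟩)
      let i₀ : I := ⟨μ₀, 1, by simpa using hv₀E⟩
      have hle : ⨆ i : I, (U.map W.subtype).map (ρ (g i)) ≤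
          U.map W.subtype ⊔ ⨆ (ν : ℂ) (_ : ν ≠ μ₀), E ν := by
        refine iSup_le fun i => ?_
        rintro _ ⟨u, hu, rfl⟩
        by_cases hi : i.1 = μ₀
        · refine Submodule.mem_sup_left ?_
          have hgi : g i ∈ H := hH _ (hi ▸ hg i)
          obtain ⟨v, hv, rfl⟩ := hu
          exact ⟨σ ⟨g i, hgi⟩ v, hU _ v hv, rfl⟩
        · exact Submodule.mem_sup_right (Submodule.mem_iSup_of_mem i.1
            (Submodule.mem_iSup_of_mem hi (hto i u (Submodule.map_subtype_le W U hu))))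
      rw [h] at hle
      obtain ⟨a, ha, b, hb', hab⟩ := Submodule.mem_sup.1 (hle (Submodule.mem_top (x := (w : V))))
      have hbW : b ∈ E μ₀ := by
        rw [show b = (w : V) - a by rw [← hab, add_sub_cancel_left]]
        exact sub_mem w.2 (Submodule.map_subtype_le W U ha)
      have hb0 : b = 0 := (Submodule.disjoint_def.1
        ((Module.End.eigenspaces_iSupIndep (ρ x)) μ₀)) b hbW hb'
      obtain ⟨v, hv, rfl⟩ := ha
      have : w = v := Subtype.ext (by simpa [hb0] using hab.symm)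
      exact this ▸ hv
    obtain ⟨ι, hι, b, hb⟩ := ih _ hlt σ rfl hW hsigma
    have hWne : W ≠ ⊥ := fun h => hv₀.2 ((Submodule.mem_bot ℂ).1 (h ▸ hv₀E))
    have hall' := htop W hWne le_rfl fun a ha v hv => (ha v).2 hv
    let f : I × ι → V := fun k => ρ (g k.1) (b k.2 : V)
    have hinj : ∀ a, Function.Injective (ρ a) := fun a u v huv => by
      simpa [← Module.End.mul_apply, ← map_mul] using congrArg (ρ a⁻¹) huv
    have hIfin : Finite I := by
      have hfin := WellFoundedGT.finite_ne_bot_of_iSupIndep (Module.End.eigenspaces_iSupIndep (ρ x))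
      refine Set.finite_coe_iff.2 (hfin.subset fun μ ⟨a, ha⟩ h => hne a ?_)
      exact (Submodule.mem_bot ℂ).1 (h ▸ ha)
    have : Fintype I := Fintype.ofFinite I
    have hli : LinearIndependent ℂ f := by
      rw [Fintype.linearIndependent_iff]
      intro c hc
      rw [Fintype.sum_prod_type] at hc
      have hind : iSupIndep fun i : I => E i.1 :=
        (Module.End.eigenspaces_iSupIndep (ρ x)).comp Subtype.val_injective
      have h0 := (iSupIndep_iff_forall_dfinsupp (p := fun i : I => E i.1)).mp hind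
      intro k
      have hzero : ∀ i : I, ∑ j, c (i, j) • f (i, j) = 0 := by
        intro i
        have hmem : ∀ i : I, ∑ j, c (i, j) • f (i, j) ∈ E i.1 := fun i =>
          sum_mem fun j _ => Submodule.smul_mem _ _ (hto i _ (b j).2)
        rw [← Finset.add_sum_erase _ _ (Finset.mem_univ i)] at hc
        refine Submodule.disjoint_def.1 (hind i) _ (hmem i) ?_
        rw [eq_neg_of_add_eq_zero_left hc]
        exact neg_mem (sum_mem fun l hl => Submodule.mem_iSup_of_mem l
          (Submodule.mem_iSup_of_mem (by simpa using hl) (hmem l)))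
      have h1 : ∑ j, c (k.1, j) • (b j : V) = 0 := hinj (g k.1) (by
        simpa [f, map_sum] using hzero k.1)
      exact Fintype.linearIndependent_iff.1 b.linearIndependent (fun j => c (k.1, j))
        (Subtype.ext (by simpa using h1)) k.2
    have hspan : ⊤ ≤ Submodule.span ℂ (Set.range f) := by
      rw [← hall']
      refine iSup_le fun i => ?_
      rintro _ ⟨u, hu, rfl⟩
      have hrepr := congrArg (fun w : W => ρ (g i) (w : V)) (b.sum_repr ⟨u, hu⟩)
      simp only [AddSubmonoidClass.coe_finsetSum, SetLike.val_smul, map_sum, map_smul] at hrepr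
      rw [← hrepr]
      exact sum_mem fun j _ => Submodule.smul_mem _ _ (Submodule.subset_span ⟨(i, j), rfl⟩)
    refine ⟨I × ι, inferInstance, Basis.mk hli hspan, fun a k => ?_⟩
    obtain ⟨ν, hν⟩ := hmap (a * g k.1) μ₀
    let j : I := ⟨ν, a * g k.1, hν _ hv₀E⟩
    have hj : (g j)⁻¹ * (a * g k.1) ∈ H := hH _ (by
      obtain ⟨κ, hκ⟩ := hmap (g j)⁻¹ ν
      have e : κ = μ₀ := hdisj (by
        simpa [← Module.End.mul_apply, ← map_mul] using hκ _ (hg j)) hv₀E hv₀.2
      rw [map_mul ρ (g j)⁻¹, Module.End.mul_apply, ← e]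
      exact hκ _ (hν _ hv₀E))
    obtain ⟨c, l, hcl⟩ := hb ⟨_, hj⟩ k.2
    refine ⟨c, (j, l), ?_⟩
    have h2 := congrArg (fun w : W => ρ (g j) (w : V)) hcl
    simp only [SetLike.val_smul, map_smul, coe_restr, σ] at h2
    change ρ (g j) (ρ ((g j)⁻¹ * (a * g k.1)) (b k.2 : V)) = _ at h2
    rw [← Module.End.mul_apply, ← map_mul,
      mul_inv_cancel_left, map_mul, Module.End.mul_apply] at h2
    simpa [f] using h2

theorem mono_of_semisimple : ∀ (d : ℕ) {Γ : Type} [Group Γ] [Group.IsNilpotent Γ] {V : Type}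
    [AddCommGroup V] [Module ℂ V] [FiniteDimensional ℂ V] (ρ : Representation ℂ Γ V),
    finrank ℂ V = d →
    (∀ W : Submodule ℂ V, (∀ γ, ∀ v ∈ W, ρ γ v ∈ W) →
      ∃ W' : Submodule ℂ V, (∀ γ, ∀ v ∈ W', ρ γ v ∈ W') ∧ IsCompl W W') → Mono ρ := by
  intro d
  induction d using Nat.strong_induction_on with
  | _ d ih =>
    intro Γ _ _ V _ _ _ ρ hd hss
    rcases subsingleton_or_nontrivial V with hV | hV
    · exact ⟨Fin 0, inferInstance, Basis.empty V, fun γ i => i.elim0⟩
    by_cases hirr : ∀ W : Submodule ℂ V, (∀ γ, ∀ v ∈ W, ρ γ v ∈ W) → W = ⊥ ∨ W = ⊤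
    · exact mono_of_irreducible d ρ hd hV hirr
    push Not at hirr
    obtain ⟨W, hW, hWb, hWt⟩ := hirr
    obtain ⟨W', hW', hc⟩ := hss W hW
    have sub : ∀ (U U' : Submodule ℂ V) (hU : ∀ γ, ∀ v ∈ U, ρ γ v ∈ U),
        (∀ γ, ∀ v ∈ U', ρ γ v ∈ U') → IsCompl U U' → U ≠ ⊤ → Mono (restr ρ U hU) := by
      intro U U' hU hU' hcU hUt
      refine ih _ (hd ▸ Submodule.finrank_lt hUt) _ rfl fun S hS => ?_
      obtain ⟨S', hS', hcS⟩ := hss (S.map U.subtype) (by
        rintro γ _ ⟨v, hv, rfl⟩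
        exact ⟨_, hS γ v hv, rfl⟩)
      obtain ⟨T, hT, hcT⟩ := hss (S.map U.subtype ⊔ U') (by
        intro γ v hv
        obtain ⟨a, ⟨w, hw, rfl⟩, b, hb, rfl⟩ := Submodule.mem_sup.1 hv
        rw [map_add]
        exact Submodule.add_mem_sup ⟨_, hS γ w hw, rfl⟩ (hU' γ b hb))
      refine ⟨(T ⊔ U').comap U.subtype, fun γ v hv => ?_, ⟨?_, ?_⟩⟩
      · obtain ⟨a, ha, b, hb, hab⟩ := Submodule.mem_sup.1 (Submodule.mem_comap.1 hv)
        refine Submodule.mem_comap.2 (Submodule.mem_sup.2 ⟨_, hT γ a ha, _, hU' γ b hb, ?_⟩)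
        rw [← map_add, hab]; rfl
      · rw [Submodule.disjoint_def]
        intro v hv hv'
        obtain ⟨a, ha, b, hb, hab⟩ := Submodule.mem_sup.1 (Submodule.mem_comap.1 hv')
        have ha' : a = 0 := Submodule.disjoint_def.1 hcT.disjoint a (by
          rw [show a = (v : V) + -b by
            rw [← show a + b = (v : V) from hab, add_neg_cancel_right]]
          exact Submodule.add_mem_sup ⟨v, hv, rfl⟩ (neg_mem hb)) ha
        rw [ha', zero_add] at hab
        exact Subtype.ext (Submodule.disjoint_def.1 hcU.disjoint _ v.2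
          (show (v : V) ∈ U' by rw [show (v : V) = b from hab.symm]; exact hb))
      · rw [codisjoint_iff, eq_top_iff]
        intro v _
        obtain ⟨a, ha, t, ht, hat⟩ := Submodule.mem_sup.1
          ((codisjoint_iff.1 hcT.codisjoint).symm ▸ Submodule.mem_top :
            (v : V) ∈ (S.map U.subtype ⊔ U') ⊔ T)
        obtain ⟨_, ⟨w, hw, rfl⟩, u, hu, rfl⟩ := Submodule.mem_sup.1 ha
        have hmem : v - w ∈ (T ⊔ U').comap U.subtype := by
          refine Submodule.mem_comap.2 (Submodule.mem_sup.2 ⟨t, ht, u, hu, ?_⟩)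
          rw [map_sub, Submodule.coe_subtype, ← hat, Submodule.coe_subtype]
          abel
        have := Submodule.add_mem_sup hw hmem
        rwa [add_sub_cancel] at this
    obtain ⟨ι, hι, b, hb⟩ := sub W W' hW hW' hc hWt
    obtain ⟨ι', hι', b', hb'⟩ := sub W' W hW' hW hc.symm fun h => hWb (by
      have := hc.disjoint; rw [h] at this; exact disjoint_top.1 this)
    refine ⟨ι ⊕ ι', inferInstance, (b.prod b').map (W.prodEquivOfIsCompl W' hc), fun γ k => ?_⟩
    rcases k with i | i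
    · obtain ⟨c, j, hj⟩ := hb γ i
      refine ⟨c, Sum.inl j, ?_⟩
      have := congrArg Subtype.val hj
      simpa [coe_restr] using this
    · obtain ⟨c, j, hj⟩ := hb' γ i
      refine ⟨c, Sum.inr j, ?_⟩
      have := congrArg Subtype.val hj
      simpa [coe_restr] using this

end Vale.Agent.P002
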